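import Vale.Agent.P057K.Newt
import Vale.Agent.P057K.Abs
import Vale.Agent.P057K.Shell
import Vale.Agent.P057K.Level
import Vale.Agent.P057K.Genbox
import Vale.Agent.P057K.Genout
import Vale.Agent.P057K.Opt
import Vale.Agent.P057K.Cc
import Vale.Agent.P057K.Final

set_option autoImplicit false

namespace Vale.Agent.Results.P057.AllLengthsLowerBound

/-- `A` contains no `k`-term arithmetic progression `a, a + d, …, a + (k-1) d` with `d > 0`. -/
def APFree (k : ℕ) (A : Finset ℕ) : Prop :=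
  ∀ a d : ℕ, 0 < d → ¬ ∀ j : ℕ, j < k → a + j * d ∈ A

/-- `r_k(N)`: the largest cardinality of a subset of `{1, …, N}` without a `k`-term arithmetic
progression. -/
noncomputable def rk (k N : ℕ) : ℕ :=
  open Classical in
  ((Finset.Icc 1 N).powerset.filter (fun A => APFree k A)).sup Finset.card

/-- the constant known before: `n 2^((n-1)/2) (log 2)^((n-1)/n)`. -/
noncomputable def oldConst (n : ℕ) : ℝ :=
  (n : ℝ) * 2 ^ (((n : ℝ) - 1) / 2) * (Real.log 2) ^ (((n : ℝ) - 1) / n)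

/-- the new constant: `n 2^((n-1)/2) (log 2)^((n-2)/n) (log (9/5))^(1/n)`. -/
noncomputable def newConst (n : ℕ) : ℝ :=
  (n : ℝ) * 2 ^ (((n : ℝ) - 1) / 2) * (Real.log 2) ^ (((n : ℝ) - 2) / n) *
    (Real.log (9 / 5)) ^ ((1 : ℝ) / n)

/-- For every `k ≥ 4`, with `n = ⌈log₂ k⌉`: the new constant is smaller than the old one, and for
every `ε > 0` and all large `N`,
`r_k(N) ≥ N exp(-(n 2^((n-1)/2) (log 2)^((n-2)/n) (log (9/5))^(1/n) + ε) (log N)^(1/n))`. -/
theorem result :
    ∀ k : ℕ, 4 ≤ k → newConst (Nat.clog 2 k) < oldConst (Nat.clog 2 k) ∧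
      ∀ ε : ℝ, 0 < ε → ∃ N₀ : ℕ, ∀ N : ℕ, N₀ ≤ N →
        (N : ℝ) * Real.exp (-((newConst (Nat.clog 2 k) + ε) *
          (Real.log N) ^ ((1 : ℝ) / (Nat.clog 2 k)))) ≤ (rk k N : ℝ) := by
  intro k hk
  constructor
  · have hn2 : 2 ≤ Nat.clog 2 k := by
      have : 1 < Nat.clog 2 k := (Nat.lt_clog_iff_pow_lt (by norm_num)).mpr (by omega)
      omega
    generalize Nat.clog 2 k = n at hn2
    have hnr : (2 : ℝ) ≤ n := by exact_mod_cast hn2
    have hn0 : (0 : ℝ) < n := by linarith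
    have hl2 : 0 < Real.log 2 := Real.log_pos (by norm_num)
    have hl9 : 0 < Real.log (9 / 5) := Real.log_pos (by norm_num)
    have hlt : Real.log (9 / 5) < Real.log 2 := Real.log_lt_log (by norm_num) (by norm_num)
    have h1 : (Real.log (9 / 5)) ^ ((1 : ℝ) / n) < (Real.log 2) ^ ((1 : ℝ) / n) :=
      Real.rpow_lt_rpow hl9.le hlt (by positivity)
    have h2 : (Real.log 2) ^ (((n : ℝ) - 1) / n) =
        (Real.log 2) ^ (((n : ℝ) - 2) / n) * (Real.log 2) ^ ((1 : ℝ) / n) := by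
      rw [← Real.rpow_add hl2]
      congr 1
      field_simp
      ring
    unfold newConst oldConst
    rw [h2, ← mul_assoc]
    exact mul_lt_mul_of_pos_left h1 (by positivity)
  · have hL : Vale.Agent.P057K.S_LEVEL :=
      Vale.Agent.P057K.level (Vale.Agent.P057K.abs_ Vale.Agent.P057K.n1)
        Vale.Agent.P057K.shell
    exact fun ε hε => Vale.Agent.P057K.final hL
      (Vale.Agent.P057K.genout Vale.Agent.P057K.n2)
      (Vale.Agent.P057K.inner Vale.Agent.P057K.n1 hL
        (Vale.Agent.P057K.genbox Vale.Agent.P057K.n2 Vale.Agent.P057K.n4p)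
        Vale.Agent.P057K.opt Vale.Agent.P057K.cc)
      Vale.Agent.P057K.opt Vale.Agent.P057K.cc k hk ε hε

end Vale.Agent.Results.P057.AllLengthsLowerBound
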