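import Vale.Agent.P057.Key
import Vale.Agent.P057.Count
import Vale.Agent.P057.Prob
import Vale.Agent.P057.Asym
import Vale.Agent.P057.Final

set_option autoImplicit false

namespace Vale.Agent.Results.P057.FourTermLowerBound

/-- `A` contains no `k`-term arithmetic progression `a, a + d, …, a + (k-1) d` with `d > 0`. -/
def APFree (k : ℕ) (A : Finset ℕ) : Prop :=
  ∀ a d : ℕ, 0 < d → ¬ ∀ j : ℕ, j < k → a + j * d ∈ A

/-- `r_k(N)`: the largest cardinality of a subset of `{1, …, N}` without a `k`-term arithmetic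
progression. -/
noncomputable def rk (k N : ℕ) : ℕ :=
  open Classical in
  ((Finset.Icc 1 N).powerset.filter (fun A => APFree k A)).sup Finset.card

/-- For every `ε > 0` and all large `N`,
`r_4(N) ≥ N exp(-(2 √(2 log (9/5)) + ε) √(log N))`, and this constant is smaller than the
constant `2 √(log (24/7))` known before. -/
theorem result :
    2 * Real.sqrt (2 * Real.log (9 / 5)) < 2 * Real.sqrt (Real.log (24 / 7)) ∧
    ∀ ε : ℝ, 0 < ε → ∃ N₀ : ℕ, ∀ N : ℕ, N₀ ≤ N →
      (N : ℝ) * Real.exp (-(2 * Real.sqrt (2 * Real.log (9 / 5)) + ε) * Real.sqrt (Real.log N)) ≤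
        (rk 4 N : ℝ) := by
  constructor
  · have h : 2 * Real.log (9 / 5) < Real.log (24 / 7) := by
      have h1 : 2 * Real.log (9 / 5) = Real.log ((9 / 5) ^ 2) := by
        rw [Real.log_pow]; norm_num
      rw [h1]
      exact Real.log_lt_log (by norm_num) (by norm_num)
    have h0 : 0 ≤ 2 * Real.log (9 / 5) := by
      have := Real.log_nonneg (show (1 : ℝ) ≤ 9 / 5 by norm_num)
      linarith
    have := Real.sqrt_lt_sqrt h0 h
    linarith
  · exact Vale.Agent.P057.final Vale.Agent.P057.key Vale.Agent.P057.count Vale.Agent.P057.small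
      Vale.Agent.P057.prob Vale.Agent.P057.asym

end Vale.Agent.Results.P057.FourTermLowerBound
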